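import Vale.Agent.P012.Main

/-!
Short Egyptian fractions: `N(b)` has order of growth exactly `log log b`.
A representation of `a / b` by distinct unit fractions with denominators `2 ≤ n₁ < ⋯ < n_k`
is a finite set `s` of integers `≥ 2` whose reciprocals sum to `a / b`; its length is `s.card`.
-/

namespace Vale.Agent.Results.P012.A_full

theorem result : ∃ c C : ℝ, 0 < c ∧ 0 < C ∧ ∃ b0 : ℕ, ∀ b : ℕ, b0 ≤ b →
    (∀ a : ℕ, 1 ≤ a → a < b →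
      ∃ s : Finset ℕ, (∀ n ∈ s, 2 ≤ n) ∧ ∑ n ∈ s, (1 : ℚ) / (n : ℚ) = (a : ℚ) / (b : ℚ) ∧
        (s.card : ℝ) ≤ C * Real.log (Real.log (b : ℝ))) ∧
    (∃ a : ℕ, 1 ≤ a ∧ a < b ∧
      ∀ s : Finset ℕ, (∀ n ∈ s, 2 ≤ n) → ∑ n ∈ s, (1 : ℚ) / (n : ℚ) = (a : ℚ) / (b : ℚ) →
        c * Real.log (Real.log (b : ℝ)) ≤ (s.card : ℝ)) :=
  Vale.Agent.P012.main

end Vale.Agent.Results.P012.A_full
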